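import Vale.Agent.Lib.P348.helper23.Basics

/-!
# P348, pool job K6: inner product basics

The inner product and squared norm of finite-dimensional complex vectors, the Cauchy-Schwarz
inequality, and: the least eigenvalue of a Hermitian matrix is at most each diagonal entry.
-/

namespace Vale.Agent.Lib.P348.H36

open Matrix

open Vale.Agent.Lib.P361 Vale.Agent.Lib.P348

theorem ip_self {n : Type*} [Fintype n] (ψ : n → ℂ) : ip ψ ψ = (nsq ψ : ℂ) := by
  rw [ip_def, nsq_def, Complex.ofReal_sum]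
  refine Finset.sum_congr rfl (fun σ _ => ?_)
  rw [Complex.star_def, Complex.conj_mul', Complex.ofReal_pow]

theorem ip_sub_right {n : Type*} [Fintype n] (φ ψ χ : n → ℂ) :
    ip φ (ψ - χ) = ip φ ψ - ip φ χ := by
  rw [ip_def, ip_def, ip_def, ← Finset.sum_sub_distrib]
  refine Finset.sum_congr rfl (fun σ _ => ?_)
  rw [Pi.sub_apply, mul_sub]

theorem ip_smul_right {n : Type*} [Fintype n] (c : ℂ) (φ ψ : n → ℂ) :
    ip φ (c • ψ) = c * ip φ ψ := by
  rw [ip_def, ip_def, Finset.mul_sum]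
  refine Finset.sum_congr rfl (fun σ _ => ?_)
  rw [Pi.smul_apply, smul_eq_mul]
  ring

theorem nsq_nonneg {n : Type*} [Fintype n] (ψ : n → ℂ) : 0 ≤ nsq ψ := by
  rw [nsq_def]
  exact Finset.sum_nonneg (fun σ _ => by positivity)

theorem nsq_eq_zero {n : Type*} [Fintype n] (ψ : n → ℂ) (h : nsq ψ = 0) : ψ = 0 := by
  rw [nsq_def] at h
  funext σ
  have h1 := (Finset.sum_eq_zero_iff_of_nonneg (fun σ _ => by positivity)).mp h σ
    (Finset.mem_univ σ)
  exact norm_eq_zero.mp ((pow_eq_zero_iff two_ne_zero).mp h1)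

theorem ip_re_sq_le {n : Type*} [Fintype n] (φ ψ : n → ℂ) :
    (ip φ ψ).re ^ 2 ≤ nsq φ * nsq ψ := by
  rw [ip_def, nsq_def, nsq_def]
  have h1 : |(∑ σ, star (φ σ) * ψ σ).re| ≤ ∑ σ, ‖φ σ‖ * ‖ψ σ‖ := by
    refine (Complex.abs_re_le_norm _).trans ((norm_sum_le _ _).trans ?_)
    refine Finset.sum_le_sum (fun σ _ => ?_)
    rw [norm_mul, norm_star]
  have h2 : (∑ σ, ‖φ σ‖ * ‖ψ σ‖) ^ 2 ≤ (∑ σ, ‖φ σ‖ ^ 2) * ∑ σ, ‖ψ σ‖ ^ 2 :=
    Finset.sum_mul_sq_le_sq_mul_sq _ _ _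
  calc (∑ σ, star (φ σ) * ψ σ).re ^ 2 = |(∑ σ, star (φ σ) * ψ σ).re| ^ 2 := (sq_abs _).symm
    _ ≤ (∑ σ, ‖φ σ‖ * ‖ψ σ‖) ^ 2 := pow_le_pow_left₀ (abs_nonneg _) h1 2
    _ ≤ _ := h2

theorem min_eig_le_diag {n : Type*} [Fintype n] [DecidableEq n] (M : Matrix n n ℂ)
    (hM : M.IsHermitian) (k0 : n) (hk0 : ∀ k, hM.eigenvalues k0 ≤ hM.eigenvalues k) (σ : n) :
    hM.eigenvalues k0 ≤ (M σ σ).re := by
  have hspec := hM.spectral_theorem
  rw [Unitary.conjStarAlgAut_apply] at hspec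
  have hU : (hM.eigenvectorUnitary : Matrix n n ℂ) * star (hM.eigenvectorUnitary : Matrix n n ℂ)
      = 1 := Unitary.coe_mul_star_self _
  have h1 : M σ σ = ∑ k, ((hM.eigenvalues k : ℝ) : ℂ) *
      ((Complex.normSq ((hM.eigenvectorUnitary : Matrix n n ℂ) σ k) : ℝ) : ℂ) := by
    have h := congrFun (congrFun hspec σ) σ
    rw [Matrix.mul_apply] at h
    rw [h]
    refine Finset.sum_congr rfl (fun k _ => ?_)
    rw [Matrix.mul_diagonal, Matrix.star_apply, Function.comp_apply, Complex.star_def,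
      ← Complex.mul_conj]
    simp only [RCLike.ofReal_eq_complex_ofReal]
    ring
  have h2 : ∑ k, Complex.normSq ((hM.eigenvectorUnitary : Matrix n n ℂ) σ k) = 1 := by
    have h := congrFun (congrFun hU σ) σ
    rw [Matrix.mul_apply, Matrix.one_apply_eq] at h
    have h3 : ∑ k, ((Complex.normSq ((hM.eigenvectorUnitary : Matrix n n ℂ) σ k) : ℝ) : ℂ)
        = 1 := by
      rw [← h]
      refine Finset.sum_congr rfl (fun k _ => ?_)
      rw [Matrix.star_apply, Complex.star_def, Complex.mul_conj]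
    exact_mod_cast h3
  have h4 : (∑ k, ((hM.eigenvalues k : ℝ) : ℂ) *
      ((Complex.normSq ((hM.eigenvectorUnitary : Matrix n n ℂ) σ k) : ℝ) : ℂ)).re
      = ∑ k, hM.eigenvalues k * Complex.normSq ((hM.eigenvectorUnitary : Matrix n n ℂ) σ k) := by
    rw [Complex.re_sum]
    refine Finset.sum_congr rfl (fun k _ => ?_)
    rw [← Complex.ofReal_mul, Complex.ofReal_re]
  rw [h1, h4]
  calc hM.eigenvalues k0
      = ∑ k, hM.eigenvalues k0 * Complex.normSq ((hM.eigenvectorUnitary : Matrix n n ℂ) σ k) := by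
        rw [← Finset.mul_sum, h2, mul_one]
    _ ≤ _ := Finset.sum_le_sum (fun k _ =>
        mul_le_mul_of_nonneg_right (hk0 k) (Complex.normSq_nonneg _))

end Vale.Agent.Lib.P348.H36
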